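import Vale.Agent.P057.R3.H475.Defs

set_option autoImplicit false

namespace Vale.Agent.P057.H475

open Vale.Agent.P057.H380

theorem arun_succ {Q B : Type} [AddCommMonoid B] (b : ℕ) (δ : ℕ → Q → ℕ → Q × B) (L : ℕ) (q : Q)
    (n : ℕ) : arun b δ (L + 1) q n =
    ((arun b (fun i => δ (i + 1)) L (δ 0 q (n % b)).1 (n / b)).1,
      (δ 0 q (n % b)).2 + (arun b (fun i => δ (i + 1)) L (δ 0 q (n % b)).1 (n / b)).2) := rfl

theorem arun_zero {Q B : Type} [AddCommMonoid B] (b : ℕ) (δ : ℕ → Q → ℕ → Q × B) (q : Q)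
    (n : ℕ) : arun b δ 0 q n = (q, 0) := rfl

/-- ROW ADD. -/
theorem arun_add {Q B : Type} [AddCommMonoid B] {b : ℕ} (hb : 2 ≤ b) (l : ℕ) :
    ∀ (s : ℕ) (δ : ℕ → Q → ℕ → Q × B) (q : Q) (x y : ℕ), x < b ^ s →
      arun b δ (s + l) q (x + b ^ s * y) =
        ((arun b (fun i => δ (s + i)) l (arun b δ s q x).1 y).1,
          (arun b δ s q x).2 + (arun b (fun i => δ (s + i)) l (arun b δ s q x).1 y).2) := by
  intro s
  induction s with
  | zero =>
    intro δ q x y hx
    have hx0 : x = 0 := by simpa using hx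
    subst hx0
    simp only [arun_zero, pow_zero, one_mul, zero_add]
  | succ s ih =>
    intro δ q x y hx
    have hb0 : 0 < b := by omega
    have e1 : s + 1 + l = (s + l) + 1 := by ring
    have e2 : (x + b ^ (s + 1) * y) % b = x % b := by
      rw [pow_succ, mul_comm (b ^ s) b, mul_assoc, Nat.add_mul_mod_self_left]
    have e3 : (x + b ^ (s + 1) * y) / b = x / b + b ^ s * y := by
      rw [pow_succ, mul_comm (b ^ s) b, mul_assoc, Nat.add_mul_div_left _ _ hb0]
    have hx' : x / b < b ^ s := by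
      rw [Nat.div_lt_iff_lt_mul hb0]
      rwa [pow_succ] at hx
    have e4 : (fun i => (fun i => δ (i + 1)) (s + i)) = fun i => δ (s + 1 + i) := by
      funext i
      show δ (s + i + 1) = δ (s + 1 + i)
      congr 1
      ring
    rw [e1, arun_succ, arun_succ, e2, e3, ih _ _ _ _ hx', e4]
    simp only [add_assoc]

/-- The last state and output only depend on the digits read. -/
theorem arun_mod {Q B : Type} [AddCommMonoid B] {b : ℕ} (hb : 2 ≤ b) (L : ℕ)
    (δ : ℕ → Q → ℕ → Q × B) (q : Q) (n : ℕ) : arun b δ L q (n % b ^ L) = arun b δ L q n := by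
  have h := arun_add hb 0 L δ q (n % b ^ L) (n / b ^ L) (Nat.mod_lt _ (by positivity))
  rw [Nat.mod_add_div] at h
  simp only [add_zero, arun_zero] at h
  exact h.symm

theorem arun_zero_steps {Q B : Type} [AddCommMonoid B] (b : ℕ) (L : ℕ)
    (δ δ' : ℕ → Q → ℕ → Q × B) (q : Q) (n : ℕ) (h : ∀ i < L, δ i = δ' i) :
    arun b δ L q n = arun b δ' L q n := by
  induction L generalizing δ δ' q n with
  | zero => rfl
  | succ L ih =>
    rw [arun_succ, arun_succ, h 0 (by omega),
      ih (fun i => δ (i + 1)) (fun i => δ' (i + 1)) _ _ (fun i hi => h (i + 1) (by omega))]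

/-- ROW BLK. -/
theorem arun_blk {Q B : Type} [AddCommMonoid B] {b : ℕ} (hb : 2 ≤ b) (m : ℕ) :
    ∀ (T : ℕ) (δ : ℕ → Q → ℕ → Q × B) (q : Q) (n : ℕ),
      arun b δ (m * T) q n =
        arun (b ^ m) (fun t q x => arun b (fun i => δ (m * t + i)) m q x) T q n := by
  intro T
  induction T with
  | zero =>
    intro δ q n
    rfl
  | succ T ih =>
    intro δ q n
    have hbm : 0 < b ^ m := by positivity
    have e1 : m * (T + 1) = m + m * T := by ring
    have e2 : n = n % b ^ m + b ^ m * (n / b ^ m) := (Nat.mod_add_div n (b ^ m)).symm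
    conv_lhs => rw [e1, e2]
    rw [arun_add hb (m * T) m δ q (n % b ^ m) (n / b ^ m) (Nat.mod_lt _ hbm), arun_succ, ih]
    have e3 : (fun (t : ℕ) (q : Q) (x : ℕ) => arun b (fun i => (fun i => δ (m + i)) (m * t + i))
        m q x) = (fun (i : ℕ) => (fun t q x => arun b (fun i => δ (m * t + i)) m q x) (i + 1)) := by
      funext t q x
      show arun b (fun i => δ (m + (m * t + i))) m q x =
        arun b (fun i => δ (m * (t + 1) + i)) m q x
      congr 1
      funext i
      congr 1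
      ring
    have e4 : (fun i => δ (m * 0 + i)) = δ := by
      funext i
      congr 1
      ring
    rw [e3]
    simp only [e4]

/-- ROW FIN. -/
theorem blk_finite {Q B : Type} [AddCommMonoid B] (b : ℕ) {𝒟 : Set (Q → ℕ → Q × B)}
    (h𝒟 : 𝒟.Finite) (m : ℕ) :
    {f : Q → ℕ → Q × B | ∃ δ : ℕ → Q → ℕ → Q × B, (∀ i, δ i ∈ 𝒟) ∧
      f = fun q x => arun b δ m q x}.Finite := by
  classical
  have : Finite 𝒟 := h𝒟.to_subtype
  rcases 𝒟.eq_empty_or_nonempty with hE | ⟨γ₀, hγ₀⟩
  · subst hE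
    refine Set.Finite.subset Set.finite_empty ?_
    rintro f ⟨δ, hδ, -⟩
    exact (hδ 0).elim
  · refine Set.Finite.subset (Set.finite_range (fun g : Fin m → 𝒟 =>
      (fun q x => arun b (fun i => if h : i < m then (g ⟨i, h⟩ : Q → ℕ → Q × B) else γ₀) m q x :
        Q → ℕ → Q × B))) ?_
    rintro f ⟨δ, hδ, rfl⟩
    refine ⟨fun i => ⟨δ i, hδ i⟩, ?_⟩
    funext q x
    refine arun_zero_steps b m _ _ q x fun i hi => ?_
    simp [hi]

end Vale.Agent.P057.H475
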