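import Vale.Agent.P057.R3.H380.Part

set_option autoImplicit false

/-!
P057, digit statistics with advice: definitions.
-/

namespace Vale.Agent.P057.H475

/-- The steps `δ 0, δ 1, …, δ (L - 1)` read the `L` lowest base `b` digits of `n`, lowest digit
first: last state and total output. -/
def arun {Q B : Type} [AddCommMonoid B] (b : ℕ) :
    (ℕ → Q → ℕ → Q × B) → ℕ → Q → ℕ → Q × B
  | _, 0, q, _ => (q, 0)
  | δ, L + 1, q, n =>
    ((arun b (fun i => δ (i + 1)) L (δ 0 q (n % b)).1 (n / b)).1,
      (δ 0 q (n % b)).2 + (arun b (fun i => δ (i + 1)) L (δ 0 q (n % b)).1 (n / b)).2)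

/-- The numbers `n` whose last state and total output, after all digits of `n` are read, lie in
`S`. -/
def advSet {Q B : Type} [AddCommMonoid B] (b : ℕ) (δ : ℕ → Q → ℕ → Q × B) (q : Q)
    (S : Set (Q × B)) : Set ℕ :=
  {n | arun b δ (Nat.digits b n).length q n ∈ S}

end Vale.Agent.P057.H475
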