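import Vale.Agent.P057.R3.H475.Sav

set_option autoImplicit false

namespace Vale.Agent.P057.H475

/-- On level `i` of the base `b` kernel: the sets `{m : r + b ^ i * m ∈ A}`, `r < b ^ i`. -/
def level (b : ℕ) (A : Set ℕ) (i : ℕ) : Set (Set ℕ) :=
  {X | ∃ r < b ^ i, X = {m | r + b ^ i * m ∈ A}}

theorem level_nonempty {b : ℕ} (hb : 2 ≤ b) (A : Set ℕ) (i : ℕ) : (level b A i).Nonempty :=
  ⟨_, 0, by positivity, rfl⟩

theorem level_finite (b : ℕ) (A : Set ℕ) (i : ℕ) : (level b A i).Finite := by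
  refine Set.Finite.subset ((Set.finite_Iio (b ^ i)).image
    (fun r => {m | r + b ^ i * m ∈ A})) ?_
  rintro X ⟨r, hr, rfl⟩
  exact ⟨r, hr, rfl⟩

theorem exists_range {α : Type} {s : Set α} (hs : s.Finite) (hne : s.Nonempty) {M : ℕ}
    (hM : s.ncard ≤ M) : ∃ f : Fin M → α, Set.range f = s := by
  classical
  obtain ⟨x0, hx0⟩ := hne
  have := hs.to_subtype
  let e : s ≃ Fin s.ncard := (Finite.equivFin s).trans (finCongr (Nat.card_coe_set_eq s))
  refine ⟨fun j => if h : (j : ℕ) < s.ncard then (e.symm ⟨j, h⟩ : α) else x0, ?_⟩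
  ext x
  constructor
  · rintro ⟨j, rfl⟩
    dsimp only
    split_ifs
    · exact (e.symm _).2
    · exact hx0
  · intro hx
    refine ⟨⟨(e ⟨x, hx⟩ : ℕ), lt_of_lt_of_le (e ⟨x, hx⟩).2 hM⟩, ?_⟩
    simp

/-- The steps on `M` states without output which only look at digits below `b`. -/
def plain (b M : ℕ) (s0 : Fin M) : Set (Fin M → ℕ → Fin M × Unit) :=
  {γ | ∀ s d, b ≤ d → γ s d = (s0, ())}

theorem plain_finite (b M : ℕ) (s0 : Fin M) : (plain b M s0).Finite := by
  classical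
  refine Set.Finite.subset (Set.finite_range (fun g : Fin M → Fin b → Fin M × Unit =>
    (fun s d => if h : d < b then g s ⟨d, h⟩ else (s0, ()) : Fin M → ℕ → Fin M × Unit))) ?_
  intro γ hγ
  refine ⟨fun s d => γ s d, ?_⟩
  funext s d
  by_cases h : d < b
  · simp [h]
  · simp only [h, dif_neg, not_false_eq_true]
    exact (hγ s d (by omega)).symm

theorem level_run {b : ℕ} (hb : 2 ≤ b) {M : ℕ} (s0 : Fin M) (A : Set ℕ)
    (hA : ∀ i, (level b A i).ncard ≤ M) :
    ∃ δ : ℕ → Fin M → ℕ → Fin M × Unit, (∀ i, δ i ∈ plain b M s0) ∧ ∃ q : Fin M, ∀ L : ℕ,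
      ∃ S : Set (Fin M × Unit), ∀ n : ℕ, n < b ^ L → (n ∈ A ↔ arun b δ L q n ∈ S) := by
  classical
  have h1 : ∀ i, ∃ f : Fin M → Set ℕ, Set.range f = level b A i := fun i =>
    exists_range (level_finite b A i) (level_nonempty hb A i) (hA i)
  choose f hf using h1
  set c : ℕ → Set ℕ → Fin M := fun i X => if h : ∃ s, f i s = X then h.choose else s0 with hc
  have hcf : ∀ i, ∀ X ∈ level b A i, f i (c i X) = X := by
    intro i X hX
    have h : ∃ s, f i s = X := by
      rw [← hf i] at hX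
      exact hX
    simp only [hc, dif_pos h]
    exact h.choose_spec
  set δ : ℕ → Fin M → ℕ → Fin M × Unit := fun i s d =>
    if d < b then (c (i + 1) {m | d + b * m ∈ f i s}, ()) else (s0, ()) with hδ
  have hmem : ∀ i s, f i s ∈ level b A i := fun i s => by
    rw [← hf i]
    exact ⟨s, rfl⟩
  have hnext : ∀ i s d, d < b → {m | d + b * m ∈ f i s} ∈ level b A (i + 1) := by
    intro i s d hd
    obtain ⟨r, hr, h⟩ := hmem i s
    refine ⟨r + b ^ i * d, ?_, ?_⟩
    · have h2 : b ^ i * (d + 1) ≤ b ^ i * b := Nat.mul_le_mul_left _ hd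
      rw [pow_succ]
      rw [mul_add, mul_one] at h2
      omega
    · rw [h]
      ext m
      simp only [Set.mem_ofPred_eq]
      have e : r + b ^ i * (d + b * m) = r + b ^ i * d + b ^ (i + 1) * m := by ring
      rw [e]
  have hrun : ∀ L j s n, f (j + L) (arun b (fun i => δ (j + i)) L s n).1 =
      {m | n % b ^ L + b ^ L * m ∈ f j s} := by
    intro L
    induction L with
    | zero =>
      intro j s n
      ext m
      simp [arun_zero, Nat.mod_one]
    | succ L ih =>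
      intro j s n
      have hd : n % b < b := Nat.mod_lt _ (by omega)
      rw [arun_succ]
      have e1 : (fun i => (fun i => δ (j + i)) (i + 1)) = fun i => δ (j + 1 + i) := by
        funext i
        show δ (j + (i + 1)) = δ (j + 1 + i)
        congr 1
        ring
      have e2 : j + (L + 1) = j + 1 + L := by ring
      have e3 : ((fun i => δ (j + i)) 0 s (n % b)).1 =
          c (j + 1) {m | n % b + b * m ∈ f j s} := by
        show (δ (j + 0) s (n % b)).1 = _
        simp only [hδ, add_zero, if_pos hd]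
      rw [e1, e2, e3, ih, hcf _ _ (hnext j s _ hd)]
      ext m
      simp only [Set.mem_ofPred_eq]
      have e4 : n % b + b * (n / b % b ^ L + b ^ L * m) =
          n % b ^ (L + 1) + b ^ (L + 1) * m := by
        rw [pow_succ, mul_comm (b ^ L) b, Nat.mod_mul]
        ring
      rw [e4]
  have hA0 : A ∈ level b A 0 := ⟨0, by simp, by ext m; simp⟩
  refine ⟨δ, fun i s d hd => ?_, c 0 A, fun L => ⟨{p | 0 ∈ f L p.1}, fun n hn => ?_⟩⟩
  · simp only [hδ, if_neg (by omega : ¬ d < b)]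
  · have h2 := hrun L 0 (c 0 A) n
    simp only [zero_add] at h2
    rw [Set.mem_ofPred_eq, h2, hcf 0 A hA0, Set.mem_ofPred_eq, mul_zero, add_zero,
      Nat.mod_eq_of_lt hn]

/-- If for all `L` and `i` at most `M` of the sections on level `i` of the set of elements with
`L` digits are different, then membership is decided by steps on `M` states. -/
theorem level_adv {b : ℕ} (hb : 2 ≤ b) {M : ℕ} (s0 : Fin M) (A : Set ℕ)
    (hA : ∀ L i, (level b {n | n ∈ A ∧ (Nat.digits b n).length = L} i).ncard ≤ M) :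
    Adv b (plain b M s0) A := by
  intro L
  obtain ⟨δ, hδ, q, h⟩ := level_run hb s0 {n | n ∈ A ∧ (Nat.digits b n).length = L} (hA L)
  obtain ⟨S, hS⟩ := h L
  refine ⟨δ, hδ, q, S, fun n hn => ?_⟩
  have hlt : n < b ^ L := by
    rw [← hn]
    exact Nat.lt_base_pow_length_digits (by omega)
  rw [← hS n hlt]
  exact ⟨fun h => ⟨h, hn⟩, fun h => h.1⟩

open Classical in
/-- Sets whose elements with `L` digits have at most `M` different sections on each level. -/
theorem level_main {b : ℕ} (hb : 2 ≤ b) (M : ℕ) {K : ℕ} (hK : 2 ≤ K) :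
    ∃ θ C : ℝ, 0 < θ ∧ θ < 1 ∧ 0 < C ∧ ∀ A : Set ℕ,
      (∀ L i, (level b {n | n ∈ A ∧ (Nat.digits b n).length = L} i).ncard ≤ M) →
      (∀ (k : ℕ) (A' : Set ℕ), A' ⊆ A → ¬ Vale.Agent.P057.H380.HasAP k A' →
        (∀ N : ℕ, 1 ≤ N → (K : ℝ) * ((A' ∩ Set.Icc 1 N).ncard : ℝ) ≤
          Vale.Agent.P057.H706.rk k K * ((A ∩ Set.Icc 1 N).ncard : ℝ) + C * (N : ℝ) ^ θ) ∧
        (∀ N : ℕ, (K : ℝ) * ∑ n ∈ (Finset.Icc 1 N).filter (· ∈ A'), 1 / (n : ℝ) ≤
          Vale.Agent.P057.H706.rk k K * ∑ n ∈ (Finset.Icc 1 N).filter (· ∈ A), 1 / (n : ℝ) +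
            C)) ∧
      (¬ Vale.Agent.P057.H380.HasAP K A →
        (∀ N : ℕ, 1 ≤ N → ((A ∩ Set.Icc 1 N).ncard : ℝ) ≤ C * (N : ℝ) ^ θ) ∧
        Summable (fun n : A => 1 / ((n : ℕ) : ℝ))) := by
  rcases Nat.eq_zero_or_pos M with hM | hM
  · refine ⟨1 / 2, 1, by norm_num, by norm_num, one_pos, fun A hA => ?_⟩
    have h1 := hA 0 0
    rw [hM, Nat.le_zero, Set.ncard_eq_zero (level_finite b _ 0)] at h1
    exact absurd h1 (level_nonempty hb _ 0).ne_empty
  · obtain ⟨θ, C, hθ0, hθ1, hC, h⟩ := adv_main hb (plain_finite b M ⟨0, hM⟩) hK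
    exact ⟨θ, C, hθ0, hθ1, hC, fun A hA => h A (level_adv hb ⟨0, hM⟩ A hA)⟩

end Vale.Agent.P057.H475
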