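import Vale.Agent.P057.R3.H475.Uni

set_option autoImplicit false

namespace Vale.Agent.P057.H475

open Vale.Agent.P057.H380 Vale.Agent.P057.H706 Finset

/-- The step `γ`, which in addition counts the digits. -/
def cstep {Q B : Type} (γ : Q → ℕ → Q × B) : Q → ℕ → Q × (B × ℕ) :=
  fun q d => ((γ q d).1, ((γ q d).2, 1))

theorem arun_cstep {Q B : Type} [AddCommMonoid B] (b : ℕ) (L : ℕ) :
    ∀ (δ : ℕ → Q → ℕ → Q × B) (q : Q) (n : ℕ), arun b (fun i => cstep (δ i)) L q n =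
      ((arun b δ L q n).1, ((arun b δ L q n).2, L)) := by
  induction L with
  | zero => intro δ q n; rfl
  | succ L ih =>
    intro δ q n
    rw [arun_succ, arun_succ, ih (fun i => δ (i + 1))]
    simp only [cstep, Prod.mk_add_mk]
    rw [Nat.add_comm 1 L]

/-- For every length, membership of the numbers with that number of digits is decided by steps
from `𝒟` (the sequence may change with the length), with an arbitrary acceptance set. -/
def Adv {Q B : Type} [AddCommMonoid B] (b : ℕ) (𝒟 : Set (Q → ℕ → Q × B)) (A : Set ℕ) : Prop :=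
  ∀ L : ℕ, ∃ δ : ℕ → Q → ℕ → Q × B, (∀ i, δ i ∈ 𝒟) ∧ ∃ (q : Q) (S : Set (Q × B)),
    ∀ n : ℕ, (Nat.digits b n).length = L → (n ∈ A ↔ arun b δ L q n ∈ S)

theorem adv_layer {Q B : Type} [AddCommMonoid B] {b : ℕ} {𝒟 : Set (Q → ℕ → Q × B)} {A : Set ℕ}
    (hA : Adv b 𝒟 A) (L : ℕ) :
    ∃ δ : ℕ → Q → ℕ → Q × (B × ℕ), (∀ i, δ i ∈ cstep '' 𝒟) ∧ ∃ (q : Q) (S : Set (Q × (B × ℕ))),
      advSet b δ q S = {n | n ∈ A ∧ (Nat.digits b n).length = L} := by
  obtain ⟨δ, hδ, q, S, h⟩ := hA L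
  refine ⟨fun i => cstep (δ i), fun i => ⟨δ i, hδ i, rfl⟩, q,
    {s | s.2.2 = L ∧ (s.1, s.2.1) ∈ S}, ?_⟩
  ext n
  simp only [advSet, Set.mem_ofPred_eq, arun_cstep]
  constructor
  · rintro ⟨h1, h2⟩
    refine ⟨(h n h1).2 ?_, h1⟩
    rw [h1] at h2
    exact h2
  · rintro ⟨h1, h2⟩
    refine ⟨h2, ?_⟩
    rw [h2]
    exact (h n h2).1 h1

/-- Numbers of `A` in `[1, N]` below and above the smallest number with the same length. -/
theorem ncard_split {b : ℕ} (hb : 2 ≤ b) (A : Set ℕ) (L N : ℕ) (h1 : b ^ L ≤ N)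
    (h2 : N < b ^ (L + 1)) :
    (A ∩ Set.Icc 1 N).ncard = (A ∩ Set.Icc 1 (b ^ L - 1)).ncard +
      ({n | n ∈ A ∧ (Nat.digits b n).length = L + 1} ∩ Set.Icc 1 N).ncard := by
  have hbL : 0 < b ^ L := by positivity
  rw [← Set.ncard_union_eq]
  · congr 1
    ext n
    simp only [Set.mem_inter_iff, Set.mem_Icc, Set.mem_union, Set.mem_ofPred_eq]
    constructor
    · rintro ⟨h3, h4, h5⟩
      by_cases h6 : n ≤ b ^ L - 1
      · exact Or.inl ⟨h3, h4, h6⟩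
      · refine Or.inr ⟨⟨h3, ?_⟩, h4, h5⟩
        refine le_antisymm
          ((Nat.digits_length_le_iff (b := b) (k := L + 1) (by omega) n).2 (by omega)) ?_
        have := (Nat.lt_digits_length_iff (b := b) (k := L) (by omega) n).2 (by omega)
        omega
    · rintro (⟨h3, h4, h5⟩ | ⟨⟨h3, h4⟩, h5, h6⟩)
      · exact ⟨h3, h4, by omega⟩
      · exact ⟨h3, h5, h6⟩
  · rw [Set.disjoint_left]
    rintro n ⟨_, _, h3⟩ ⟨⟨_, h4⟩, _⟩
    have := (Nat.lt_digits_length_iff (b := b) (k := L) (by omega) n).1 (by omega)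
    omega

open Classical in
theorem relative_len {Q B : Type} [Finite Q] [AddCommMonoid B] {b : ℕ} (hb : 2 ≤ b)
    {𝒟 : Set (Q → ℕ → Q × B)} (h𝒟 : 𝒟.Finite) {K : ℕ} (hK : 2 ≤ K) :
    ∃ θ C : ℝ, 0 < θ ∧ θ < 1 ∧ 0 < C ∧ ∀ A : Set ℕ, Adv b 𝒟 A →
      ∀ k : ℕ, ∀ A' : Set ℕ, A' ⊆ A → ¬ HasAP k A' →
        (∀ N : ℕ, 1 ≤ N → (K : ℝ) * ((A' ∩ Set.Icc 1 N).ncard : ℝ) ≤
          rk k K * ((A ∩ Set.Icc 1 N).ncard : ℝ) + C * (N : ℝ) ^ θ) ∧
        (∀ N : ℕ, (K : ℝ) * ∑ n ∈ (Finset.Icc 1 N).filter (· ∈ A'), 1 / (n : ℝ) ≤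
          rk k K * ∑ n ∈ (Finset.Icc 1 N).filter (· ∈ A), 1 / (n : ℝ) + C) := by
  obtain ⟨θ, C1, hθ0, hθ1, hC1, huni⟩ := main_uniform hb (h𝒟.image cstep) hK
  obtain ⟨C', hC', habel⟩ := Vale.Agent.P057.H567.abel hθ1
  have hbθ : 1 < (b : ℝ) ^ θ := Real.one_lt_rpow (by exact_mod_cast (by omega : 1 < b)) hθ0
  set C2 : ℝ := C1 * (b : ℝ) ^ θ / ((b : ℝ) ^ θ - 1) with hC2
  have hC2pos : 0 < C2 := by
    rw [hC2]
    exact div_pos (by positivity) (by linarith)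
  have hC2eq : C2 * ((b : ℝ) ^ θ - 1) = C1 * (b : ℝ) ^ θ := by
    rw [hC2]
    exact div_mul_cancel₀ _ (by linarith)
  set C3 : ℝ := C2 + C1 with hC3
  refine ⟨θ, C3 + C3 * C', hθ0, hθ1, by positivity, ?_⟩
  intro A hA k A' hA' hAP
  have hlayer : ∀ L N : ℕ, 1 ≤ N → (K : ℝ) *
      (({n | n ∈ A' ∧ (Nat.digits b n).length = L} ∩ Set.Icc 1 N).ncard : ℝ) ≤
      rk k K * (({n | n ∈ A ∧ (Nat.digits b n).length = L} ∩ Set.Icc 1 N).ncard : ℝ) +
        C1 * (N : ℝ) ^ θ := by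
    intro L N hN
    obtain ⟨δ, hδ, q, S, h⟩ := adv_layer hA L
    rw [← h]
    refine huni δ hδ q S k _ ?_ ?_ N hN
    · rw [h]
      rintro n ⟨h1, h2⟩
      exact ⟨hA' h1, h2⟩
    · rintro ⟨a, d, hd, h1⟩
      exact hAP ⟨a, d, hd, fun j hj => (h1 j hj).1⟩
  have hpow : ∀ L : ℕ, (K : ℝ) * ((A' ∩ Set.Icc 1 (b ^ L - 1)).ncard : ℝ) ≤
      rk k K * ((A ∩ Set.Icc 1 (b ^ L - 1)).ncard : ℝ) + C2 * ((b : ℝ) ^ θ) ^ L := by
    intro L
    induction L with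
    | zero =>
      have h0 : Set.Icc 1 (b ^ 0 - 1) = (∅ : Set ℕ) := by simp
      rw [h0]
      simp only [Set.inter_empty, Set.ncard_empty, Nat.cast_zero, mul_zero, zero_add, pow_zero,
        mul_one]
      exact hC2pos.le
    | succ L ih =>
      have hbL : b ^ L + 1 ≤ b ^ (L + 1) := by
        rw [pow_succ]
        have h3 : b ^ L * 2 ≤ b ^ L * b := Nat.mul_le_mul_left _ hb
        have h4 : 0 < b ^ L := by positivity
        omega
      have hN1 : 1 ≤ b ^ (L + 1) - 1 := by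
        have h4 : 0 < b ^ L := by positivity
        omega
      rw [ncard_split hb A' L (b ^ (L + 1) - 1) (by omega) (by omega),
        ncard_split hb A L (b ^ (L + 1) - 1) (by omega) (by omega)]
      have h5 := hlayer (L + 1) (b ^ (L + 1) - 1) hN1
      have h6 : ((b ^ (L + 1) - 1 : ℕ) : ℝ) ^ θ ≤ ((b : ℝ) ^ θ) ^ (L + 1) := by
        rw [← Real.rpow_natCast, ← Real.rpow_mul (Nat.cast_nonneg b), mul_comm θ,
          Real.rpow_mul (Nat.cast_nonneg b), Real.rpow_natCast]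
        refine Real.rpow_le_rpow (Nat.cast_nonneg _) ?_ hθ0.le
        have : b ^ (L + 1) - 1 ≤ b ^ (L + 1) := by omega
        exact_mod_cast this
      have h7 : C1 * ((b ^ (L + 1) - 1 : ℕ) : ℝ) ^ θ ≤ C1 * ((b : ℝ) ^ θ) ^ (L + 1) :=
        mul_le_mul_of_nonneg_left h6 hC1.le
      have h8 : C2 * ((b : ℝ) ^ θ) ^ L + C1 * ((b : ℝ) ^ θ) ^ (L + 1) =
          C2 * ((b : ℝ) ^ θ) ^ (L + 1) := by
        rw [pow_succ]
        linear_combination (-((b : ℝ) ^ θ) ^ L) * hC2eq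
      push_cast
      linarith
  have hmain : ∀ N : ℕ, 1 ≤ N → (K : ℝ) * ((A' ∩ Set.Icc 1 N).ncard : ℝ) ≤
      rk k K * ((A ∩ Set.Icc 1 N).ncard : ℝ) + C3 * (N : ℝ) ^ θ := by
    intro N hN
    obtain ⟨L, hL1, hL2⟩ : ∃ L, b ^ L ≤ N ∧ N < b ^ (L + 1) :=
      ⟨Nat.log b N, Nat.pow_log_le_self b (by omega), Nat.lt_pow_succ_log_self (by omega) N⟩
    rw [ncard_split hb A' L N hL1 hL2, ncard_split hb A L N hL1 hL2]
    have h5 := hlayer (L + 1) N hN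
    have h6 : ((b : ℝ) ^ θ) ^ L ≤ (N : ℝ) ^ θ := by
      rw [← Real.rpow_natCast, ← Real.rpow_mul (Nat.cast_nonneg b), mul_comm θ,
        Real.rpow_mul (Nat.cast_nonneg b), Real.rpow_natCast]
      refine Real.rpow_le_rpow (by positivity) ?_ hθ0.le
      exact_mod_cast hL1
    have h7 : C2 * ((b : ℝ) ^ θ) ^ L ≤ C2 * (N : ℝ) ^ θ :=
      mul_le_mul_of_nonneg_left h6 hC2pos.le
    have h8 := hpow L
    push_cast
    rw [hC3, add_mul C2 C1]
    linarith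
  constructor
  · intro N hN
    refine (hmain N hN).trans ?_
    have h1 : 0 ≤ (N : ℝ) ^ θ := Real.rpow_nonneg (Nat.cast_nonneg N) θ
    have h2 : 0 ≤ C3 * C' * (N : ℝ) ^ θ := by positivity
    nlinarith
  · intro N
    have hC3pos : 0 < C3 := by positivity
    have h1 := habel (fun n => if n ∈ A' then (K : ℝ) else 0)
      (fun n => if n ∈ A then (rk k K : ℝ) else 0) C3 hC3pos.le (by
        intro N hN
        rw [ncard_eq_sum, ncard_eq_sum]
        exact hmain N hN) N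
    simp only [recip_eq_sum] at h1
    linarith

end Vale.Agent.P057.H475
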