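import Vale.Agent.P057.R3.H475.Basic

set_option autoImplicit false

namespace Vale.Agent.P057.H475

open Vale.Agent.P057.H380 Finset

/-- Reading a number given by its digits along its path of states. -/
theorem arun_digits {Q B : Type} [AddCommMonoid B] {b : ℕ} (hb : 2 ≤ b)
    (δ : ℕ → Q → ℕ → Q × B) (p : ℕ → Q) (d : ℕ → ℕ) (hd : ∀ t, d t < b)
    (hp : ∀ t, p (t + 1) = (δ t (p t) (d t)).1) (m : ℕ) :
    (∑ t ∈ range m, d t * b ^ t) < b ^ m ∧
      arun b δ m (p 0) (∑ t ∈ range m, d t * b ^ t) =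
        (p m, ∑ t ∈ range m, (δ t (p t) (d t)).2) := by
  induction m with
  | zero => simp [arun_zero]
  | succ m ih =>
    obtain ⟨h1, h2⟩ := ih
    rw [sum_range_succ, mul_comm (d m) (b ^ m)]
    constructor
    · have h3 : b ^ m * (d m + 1) ≤ b ^ m * b := Nat.mul_le_mul_left _ (hd m)
      rw [pow_succ]
      rw [mul_add, mul_one] at h3
      omega
    · rw [arun_add hb 1 m δ (p 0) _ (d m) h1, h2, sum_range_succ]
      simp only [arun_succ, arun_zero, add_zero, Nat.mod_eq_of_lt (hd m)]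
      rw [hp m]

/-- ROW C (pigeonhole on (step, state), then a telescoping sum). -/
theorem rowC {Q B : Type} [Finite Q] [AddCommMonoid B] {b : ℕ} (hb : 2 ≤ b)
    {𝒟 : Set (Q → ℕ → Q × B)} (h𝒟 : 𝒟.Finite) {K R : ℕ} (hK : 1 ≤ K)
    (hB : ∀ γ ∈ 𝒟, ∀ q, ∃ x y Δ : ℕ, 0 < y ∧ 0 < Δ ∧ Δ ≤ R ∧ (∀ i < Δ + K, x + i * y < b) ∧
      (∀ i < Δ + K, (γ q (x + i * y)).1 = (γ q x).1) ∧
      ∀ i < K, γ q (x + (i + Δ) * y) = γ q (x + i * y)) :
    ∃ m : ℕ, ∀ δ : ℕ → Q → ℕ → Q × B, (∀ i, δ i ∈ 𝒟) → ∀ q : Q,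
      ∃ v D : ℕ, 0 < D ∧ (∀ j < K, v + j * D < b ^ m) ∧
        ∀ j < K, arun b δ m q (v + j * D) = arun b δ m q v := by
  classical
  have : Fintype Q := Fintype.ofFinite Q
  choose! fx fy fD hB using hB
  set U : Finset ((Q → ℕ → Q × B) × Q) := h𝒟.toFinset ×ˢ (Finset.univ : Finset Q) with hU
  refine ⟨U.card * R + 1, fun δ hδ q => ?_⟩
  set m := U.card * R + 1 with hm
  set p : ℕ → Q := fun t => Nat.rec q (fun t r => (δ t r (fx (δ t) r)).1) t with hpdef
  have hp0 : p 0 = q := rfl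
  have hps : ∀ t, p (t + 1) = (δ t (p t) (fx (δ t) (p t))).1 := fun t => rfl
  obtain ⟨⟨γ, s⟩, hγs, hcard⟩ := Finset.exists_lt_card_fiber_of_mul_lt_card_of_maps_to
    (s := range m) (t := U) (f := fun t => (δ t, p t)) (n := R) (fun t _ => by
      rw [hU, Finset.mem_product]
      exact ⟨h𝒟.mem_toFinset.2 (hδ t), Finset.mem_univ _⟩) (by rw [card_range, hm]; omega)
  have hγ : γ ∈ 𝒟 := by
    rw [hU, Finset.mem_product] at hγs
    exact h𝒟.mem_toFinset.1 hγs.1
  obtain ⟨hy, hΔ, hΔR, hlt, hst, heq⟩ := hB γ hγ s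
  set y0 := fy γ s with hy0
  set Δ0 := fD γ s with hΔ0
  set x0 := fx γ s with hx0
  obtain ⟨T, hTsub, hTcard⟩ := Finset.exists_subset_card_eq
    (s := (range m).filter (fun t => (δ t, p t) = (γ, s))) (n := Δ0) (by omega)
  have hTm : T ⊆ range m := hTsub.trans (Finset.filter_subset _ _)
  have hTδ : ∀ t ∈ T, δ t = γ ∧ p t = s := by
    intro t ht
    have h1 := (Finset.mem_filter.1 (hTsub ht)).2
    exact ⟨congrArg Prod.fst h1, congrArg Prod.snd h1⟩
  let e : T ≃ Fin Δ0 := T.equivFinOfCardEq hTcard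
  set σ : ℕ → ℕ := fun t => if h : t ∈ T then ((e ⟨t, h⟩ : Fin Δ0) : ℕ) else 0 with hσ
  have hσlt : ∀ t ∈ T, σ t < Δ0 := by
    intro t ht
    simp only [hσ, dif_pos ht]
    exact (e ⟨t, ht⟩).2
  set dg : ℕ → ℕ → ℕ := fun j t => fx (δ t) (p t) + (if t ∈ T then (σ t + j) * y0 else 0)
    with hdg
  have hdgT : ∀ j, ∀ t ∈ T, dg j t = x0 + (σ t + j) * y0 := by
    intro j t ht
    obtain ⟨h1, h2⟩ := hTδ t ht
    simp only [hdg, if_pos ht, h1, h2, ← hx0]
  have hdgN : ∀ j, ∀ t ∉ T, dg j t = fx (δ t) (p t) := by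
    intro j t ht
    simp only [hdg, if_neg ht, add_zero]
  have hdlt : ∀ j < K, ∀ t, dg j t < b := by
    intro j hj t
    by_cases ht : t ∈ T
    · rw [hdgT j t ht]
      exact hlt _ (by have := hσlt t ht; omega)
    · rw [hdgN j t ht]
      have := (hB (δ t) (hδ t) (p t)).2.2.2.1 0 (by
        have := (hB (δ t) (hδ t) (p t)).2.1
        omega)
      simpa using this
  have hpath : ∀ j < K, ∀ t, p (t + 1) = (δ t (p t) (dg j t)).1 := by
    intro j hj t
    by_cases ht : t ∈ T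
    · rw [hps t, hdgT j t ht]
      obtain ⟨h1, h2⟩ := hTδ t ht
      rw [h1, h2, hst _ (by have := hσlt t ht; omega)]
    · rw [hps t, hdgN j t ht]
  have hrun : ∀ j < K, (∑ t ∈ range m, dg j t * b ^ t) < b ^ m ∧
      arun b δ m q (∑ t ∈ range m, dg j t * b ^ t) =
        (p m, ∑ t ∈ range m, (δ t (p t) (dg j t)).2) := fun j hj =>
    arun_digits hb δ p (dg j) (hdlt j hj) (hpath j hj) m
  set D := y0 * ∑ t ∈ T, b ^ t with hD
  have hval : ∀ j, ∑ t ∈ range m, dg j t * b ^ t = ∑ t ∈ range m, dg 0 t * b ^ t + j * D := by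
    intro j
    have h1 : ∀ t ∈ range m, dg j t * b ^ t = dg 0 t * b ^ t +
        (if t ∈ T then j * (y0 * b ^ t) else 0) := by
      intro t _
      by_cases ht : t ∈ T
      · rw [hdgT j t ht, hdgT 0 t ht, if_pos ht]
        ring
      · rw [hdgN j t ht, hdgN 0 t ht, if_neg ht, add_zero]
    rw [Finset.sum_congr rfl h1, Finset.sum_add_distrib, ← Finset.sum_filter]
    have h2 : (range m).filter (· ∈ T) = T := by
      ext t
      rw [Finset.mem_filter]
      exact ⟨fun h => h.2, fun h => ⟨hTm h, h⟩⟩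
    rw [h2, hD, Finset.mul_sum, Finset.mul_sum]
  set g : ℕ → B := fun i => (γ s (x0 + i * y0)).2 with hg
  have hG : ∀ j, ∑ t ∈ T, g (σ t + j) = ∑ i ∈ range Δ0, g (i + j) := by
    intro j
    rw [← Finset.sum_coe_sort T, ← Fin.sum_univ_eq_sum_range (fun i => g (i + j)) Δ0,
      ← Equiv.sum_comp e]
    refine Finset.sum_congr rfl fun t _ => ?_
    simp only [hσ, dif_pos t.2]
  have hper : ∀ i < K, g (i + Δ0) = g i := by
    intro i hi
    simp only [hg]
    rw [heq i hi]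
  have hstep : ∀ j < K, ∑ i ∈ range Δ0, g (i + (j + 1)) = ∑ i ∈ range Δ0, g (i + j) := by
    intro j hj
    obtain ⟨r, hr⟩ : ∃ r, Δ0 = r + 1 := ⟨Δ0 - 1, by omega⟩
    rw [hr, Finset.sum_range_succ, Finset.sum_range_succ' (fun i => g (i + j))]
    have e1 : r + (j + 1) = j + Δ0 := by omega
    rw [e1, hper j hj, zero_add]
    congr 1
    refine Finset.sum_congr rfl fun i _ => ?_
    congr 1
    ring
  have hconst : ∀ j < K, ∑ i ∈ range Δ0, g (i + j) = ∑ i ∈ range Δ0, g (i + 0) := by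
    intro j
    induction j with
    | zero => intro _; rfl
    | succ j ih =>
      intro hj
      rw [hstep j (by omega), ih (by omega)]
  have hout : ∀ j < K, ∑ t ∈ range m, (δ t (p t) (dg j t)).2 =
      ∑ t ∈ range m, (δ t (p t) (dg 0 t)).2 := by
    intro j hj
    have key : ∀ j < K, ∑ t ∈ range m, (δ t (p t) (dg j t)).2 =
        ∑ t ∈ range m \ T, (δ t (p t) (fx (δ t) (p t))).2 + ∑ i ∈ range Δ0, g (i + j) := by
      intro j _
      rw [← Finset.sum_sdiff hTm, ← hG j]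
      congr 1
      · refine Finset.sum_congr rfl fun t ht => ?_
        rw [hdgN j t (Finset.mem_sdiff.1 ht).2]
      · refine Finset.sum_congr rfl fun t ht => ?_
        obtain ⟨h1, h2⟩ := hTδ t ht
        rw [hdgT j t ht, h1, h2]
    rw [key j hj, key 0 (by omega), hconst j hj]
  refine ⟨∑ t ∈ range m, dg 0 t * b ^ t, D, ?_, fun j hj => ?_, fun j hj => ?_⟩
  · have hTne : T.Nonempty := Finset.card_pos.1 (by omega)
    have : 0 < ∑ t ∈ T, b ^ t := Finset.sum_pos (fun t _ => by positivity) hTne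
    exact Nat.mul_pos hy this
  · rw [← hval j]
    exact (hrun j hj).1
  · rw [← hval j, (hrun j hj).2, (hrun 0 (by omega)).2, hout j hj]

end Vale.Agent.P057.H475
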