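import Vale.Agent.P057.R3.H475.Len

set_option autoImplicit false

namespace Vale.Agent.P057.H475

open Vale.Agent.P057.H380 Vale.Agent.P057.H706 Finset

open Classical in
/-- Digit statistics with advice: clauses (2) and (3). -/
theorem adv_main {Q B : Type} [Finite Q] [AddCommMonoid B] {b : ℕ} (hb : 2 ≤ b)
    {𝒟 : Set (Q → ℕ → Q × B)} (h𝒟 : 𝒟.Finite) {K : ℕ} (hK : 2 ≤ K) :
    ∃ θ C : ℝ, 0 < θ ∧ θ < 1 ∧ 0 < C ∧ ∀ A : Set ℕ, Adv b 𝒟 A →
      (∀ (k : ℕ) (A' : Set ℕ), A' ⊆ A → ¬ HasAP k A' →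
        (∀ N : ℕ, 1 ≤ N → (K : ℝ) * ((A' ∩ Set.Icc 1 N).ncard : ℝ) ≤
          rk k K * ((A ∩ Set.Icc 1 N).ncard : ℝ) + C * (N : ℝ) ^ θ) ∧
        (∀ N : ℕ, (K : ℝ) * ∑ n ∈ (Finset.Icc 1 N).filter (· ∈ A'), 1 / (n : ℝ) ≤
          rk k K * ∑ n ∈ (Finset.Icc 1 N).filter (· ∈ A), 1 / (n : ℝ) + C)) ∧
      (¬ HasAP K A →
        (∀ N : ℕ, 1 ≤ N → ((A ∩ Set.Icc 1 N).ncard : ℝ) ≤ C * (N : ℝ) ^ θ) ∧
        Summable (fun n : A => 1 / ((n : ℕ) : ℝ))) := by
  obtain ⟨θ, C, hθ0, hθ1, hC, h⟩ := relative_len hb h𝒟 hK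
  refine ⟨θ, C, hθ0, hθ1, hC, fun A hA => ⟨fun k A' hA' hAP => h A hA k A' hA' hAP,
    fun hAP => ?_⟩⟩
  obtain ⟨h1, h2⟩ := h A hA K A subset_rfl hAP
  have hrk : ((rk K K : ℕ) : ℝ) + 1 ≤ (K : ℝ) := by
    exact_mod_cast rk_lt (by omega) le_rfl
  have h2' : ∀ N : ℕ, ∑ n ∈ (Finset.Icc 1 N).filter (· ∈ A), 1 / (n : ℝ) ≤ C := by
    intro N
    have h3 := h2 N
    have h4 : 0 ≤ ∑ n ∈ (Finset.Icc 1 N).filter (· ∈ A), 1 / (n : ℝ) :=
      Finset.sum_nonneg fun n _ => by positivity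
    nlinarith
  constructor
  · intro N hN
    have h3 := h1 N hN
    have h4 : (0 : ℝ) ≤ ((A ∩ Set.Icc 1 N).ncard : ℝ) := Nat.cast_nonneg _
    nlinarith
  · refine (summable_subtype_iff_indicator (f := fun n : ℕ => 1 / (n : ℝ)) (s := A)).2 ?_
    refine summable_of_sum_range_le (c := C) (fun n => ?_) (fun N => ?_)
    · exact Set.indicator_nonneg (fun n _ => by positivity) n
    · refine le_trans ?_ (h2' N)
      rw [Finset.sum_filter]
      have h5 : ∀ n : ℕ, Set.indicator A (fun n : ℕ => 1 / (n : ℝ)) n =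
          if n ∈ A then 1 / (n : ℝ) else 0 := fun n => by
        by_cases hn : n ∈ A
        · simp [hn]
        · simp [hn]
      simp only [h5]
      rw [← Finset.sum_subset (s₁ := (Finset.range N).filter (0 < ·)) (s₂ := Finset.range N)
        (Finset.filter_subset _ _)]
      · refine Finset.sum_le_sum_of_subset_of_nonneg ?_ ?_
        · intro n hn
          obtain ⟨h6, h7⟩ := Finset.mem_filter.1 hn
          have h8 := Finset.mem_range.1 h6
          exact Finset.mem_Icc.2 ⟨h7, by omega⟩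
        · intro n _ _
          split_ifs
          · positivity
          · exact le_rfl
      · intro n hn hn'
        have h6 : n = 0 := by
          by_contra h7
          exact hn' (Finset.mem_filter.2 ⟨hn, Nat.pos_of_ne_zero h7⟩)
        subst h6
        simp

end Vale.Agent.P057.H475
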