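import Vale.Agent.P057.R3.H475.Core
import Vale.Agent.P057.R3.H664.Close
import Vale.Agent.P057.R3.H567.PartF
import Vale.Agent.P057.R3.H706.Glue2

set_option autoImplicit false

namespace Vale.Agent.P057.H475

open Vale.Agent.P057.H380 Vale.Agent.P057.H706

theorem main_uniform {Q B : Type} [Finite Q] [AddCommMonoid B] {b : ℕ} (hb : 2 ≤ b)
    {𝒟 : Set (Q → ℕ → Q × B)} (h𝒟 : 𝒟.Finite) {K : ℕ} (hK : 2 ≤ K) :
    ∃ θ C : ℝ, 0 < θ ∧ θ < 1 ∧ 0 < C ∧ ∀ δ : ℕ → Q → ℕ → Q × B, (∀ i, δ i ∈ 𝒟) → ∀ (q : Q)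
      (S : Set (Q × B)) (k : ℕ) (A' : Set ℕ), A' ⊆ advSet b δ q S → ¬ HasAP k A' →
        ∀ N : ℕ, 1 ≤ N → (K : ℝ) * ((A' ∩ Set.Icc 1 N).ncard : ℝ) ≤
          rk k K * ((advSet b δ q S ∩ Set.Icc 1 N).ncard : ℝ) + C * (N : ℝ) ^ θ := by
  obtain ⟨m, hcore⟩ := core hb h𝒟 (K := K) (by omega)
  by_cases hne : ∃ (δ : ℕ → Q → ℕ → Q × B) (_ : Q), ∀ i, δ i ∈ 𝒟
  swap
  · refine ⟨1 / 2, 1, by norm_num, by norm_num, one_pos, ?_⟩
    intro δ hδ q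
    exact absurd ⟨δ, q, hδ⟩ hne
  obtain ⟨δ₀, q₀, hδ₀⟩ := hne
  have hB : 3 ≤ b ^ (m + 1) := by
    obtain ⟨v, D, hD, hv, -⟩ := hcore δ₀ hδ₀ q₀
    have h1 := hv 0 (by omega)
    have h2 := hv 1 (by omega)
    have h3 : 0 < b ^ m := by positivity
    omega
  obtain ⟨θ, C, hθ0, hθ1, hC, hpow⟩ := Vale.Agent.P057.R3.H244.to_rpow hB
  have hK0 : (0 : ℝ) < K := by
    have : 0 < K := by omega
    exact_mod_cast this
  have hbm : 0 < b ^ m := by positivity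
  have hB0 : 0 < b ^ (m + 1) := by positivity
  refine ⟨θ, 2 * (K : ℝ) ^ 2 * C, hθ0, hθ1, by positivity, ?_⟩
  intro δ hδ q S k A' hA' hAP N hN
  obtain ⟨T, hT1, hT2⟩ := hpow N hN
  have h1 := Vale.Agent.P057.H567.part_family (B := b ^ (m + 1)) hK
    (fun A => ∃ δ : ℕ → Q → ℕ → Q × B, (∀ i, δ i ∈ 𝒟) ∧ ∃ (q : Q) (S : Set (Q × B)),
      ∀ n : ℕ, 0 < n → (n ∈ A ↔ n ∈ advSet b δ q S))
    (by
      rintro A ⟨δ, hδ, q, S, h⟩ d hd
      obtain ⟨q', S', h'⟩ := Vale.Agent.P057.R3.H664.adv_close hb δ q S (m + 1) d hd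
      refine ⟨fun i => δ (m + 1 + i), fun i => hδ _, q', S', fun y hy => ?_⟩
      rw [← h' y hy, ← h _ (by have := Nat.mul_pos hB0 hy; omega)]
      exact Iff.rfl)
    (by
      rintro A ⟨δ, hδ, q, S, h⟩
      obtain ⟨v, D, hD, hv, hsame⟩ := hcore δ hδ q
      have hv0 : b ^ m ≤ v ∧ v < b ^ (m + 1) := by simpa using hv 0 (by omega)
      refine ⟨v, D, by omega, hD, fun j hj => (hv j hj).2, fun j hj => ?_⟩
      ext y
      have h3 := Vale.Agent.P057.R3.H664.adv_same hb δ q S m v (v + j * D) hv0 (hv j hj)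
        (hsame j hj) y
      have h4 := h (v + j * D + b ^ (m + 1) * y) (by have := (hv j hj).1; omega)
      have h5 := h (v + b ^ (m + 1) * y) (by omega)
      exact h4.trans (h3.trans h5.symm)) T
    (advSet b δ q S \ {0}) ⟨δ, hδ, q, S, fun n hn => by
      simp only [Set.mem_sdiff, Set.mem_singleton_iff]
      exact ⟨fun h => h.1, fun h => ⟨h, by omega⟩⟩⟩
    k (rk k K) (fun F hF h => card_le_rk F hF h) (A' \ {0})
    (Set.sdiff_subset_sdiff_left hA') (by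
      rintro ⟨a, d, hd, h⟩
      exact hAP ⟨a, d, hd, fun j hj => (h j hj).1⟩) (N + 1) hT1
  rw [cnt_eq, cnt_eq] at h1
  have h2 : (K : ℝ) * ((A' ∩ Set.Icc 1 N).ncard : ℝ) ≤
      rk k K * ((advSet b δ q S ∩ Set.Icc 1 N).ncard : ℝ) +
        2 * (K : ℝ) ^ 2 * ((b ^ (m + 1) - 1 : ℕ) : ℝ) ^ T := by
    exact_mod_cast h1
  refine h2.trans ?_
  have h3 : 2 * (K : ℝ) ^ 2 * ((b ^ (m + 1) - 1 : ℕ) : ℝ) ^ T ≤
      2 * (K : ℝ) ^ 2 * C * (N : ℝ) ^ θ := by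
    rw [mul_assoc (2 * (K : ℝ) ^ 2) C]
    exact mul_le_mul_of_nonneg_left hT2 (by positivity)
  linarith

end Vale.Agent.P057.H475
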